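import Vale.Agent.P092.H99.P.Geo
import Vale.Agent.P092.H124.KL4

/-!
P092, TEAM P (helper99): from a polynomial count to the keys, once for both walls, straight and
flipped legs. `Cnt` = the common output of COUNT_1 and COUNT_2.
-/

set_option linter.all false

open scoped InnerProductSpace ENNReal LinearAlgebra.Projectivization Matrix
open Filter Topology ContinuousLinearMap MeasureTheory TopologicalSpace

namespace Vale.Agent.P092.H99.P

open Vale.Agent.P092.SP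
open Vale.Agent.P092.SP4
open Vale.Agent.P092.SD (Ms UC)
open Vale.Agent.P092.RC (Cm TRN Moore GG PG YY y0)
open Vale.Agent.P092.H790.CT (PicL)
open Vale.Agent.P092.H790.CTA (ORBG SIZEG cnt_size of_poly csm conj_pow')
open Vale.Agent.P092.H124.KL (norm_adj')

section count

variable {E Γ K V : Type} [Group E] [Group Γ] [NormedAddCommGroup K] [InnerProductSpace ℂ K]
  [CompleteSpace K] {π : E →* (K →L[ℂ] K)} {lam : Γ →* (K →L[ℂ] K)} {W : Set (K →L[ℂ] K)} {Ω : K}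
  {m : Set Γ → (K →L[ℂ] K)}
  [TopologicalSpace E] [IsTopologicalGroup E] [NormedAddCommGroup V] [ProperSpace V]
  [MeasurableSpace V] [BorelSpace V] {μ : Measure V} [IsFiniteMeasureOnCompacts μ]
  [μ.IsOpenPosMeasure] {b : E} {n : V → E} {ρ : ℝ} {sz : Γ → ℝ}

/-- the counting principle for an operator dominated by cut-offs along an ultrafilter -/
theorem zero_of_count' (𝒰 : Filter ℕ) [NeBot 𝒰] (h𝒰 : 𝒰 ≤ atTop)
    (hP : PicL π lam W Ω) (hM : Ms lam W Ω m) (hUC : UC π W Ω m)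
    (hρ : 0 < ρ) (hρ1 : ρ < 1) (hnc : Tendsto n (𝓝 0) (𝓝 1)) (hORB : ORBG μ b n ρ π lam W Ω)
    (hsz : ∀ γ, ∃ d : ℝ, 1 ≤ d ∧ ∀ y, sz (γ * y) ≤ d * sz y) (hsz0 : ∀ γ, 0 < sz γ)
    (hS : SIZEG b π Ω m sz) {g : E} {B P : K →L[ℂ] K} (hB : Cm W B)
    (hb : Commute B (π (g * b * g⁻¹))) (hn : ∀ s, Commute B (π (g * n s * g⁻¹)))
    {c : ℝ} {NA : ℝ → ℝ → Set Γ}
    (dom : ∀ ζ : K, ∀ ε > 0, ∃ R : ℝ, ∀ T > 0, ∀ᶠ N : ℕ in 𝒰,
      ‖P ζ‖ ≤ c * ‖m (NA R T) (π (g * b ^ N * g⁻¹)⁻¹ ζ)‖ + ε)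
    (cnt : ∀ R : ℝ, ∃ T > 0, ∃ (C : ℝ) (d : ℕ), ∀ J : ℝ, 0 ≤ J → ∀ S : Finset Γ,
      (∀ γ ∈ S, γ ∈ NA R T ∧ Real.log (sz γ) ≤ J) →
        ∑ γ ∈ S, ‖adjoint B (lam γ Ω)‖ ^ 2 ≤ C * (1 + J) ^ d) : P * B = 0 := by
  refine ContinuousLinearMap.ext fun ζ => ?_
  change P (B ζ) = 0
  rw [← norm_eq_zero]
  refine le_antisymm (le_of_forall_pos_le_add fun ε hε => ?_) (norm_nonneg _)
  rw [zero_add]
  obtain ⟨R, hR⟩ := dom (B ζ) ε hε
  obtain ⟨T, hT, C, d, h⟩ := cnt R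
  obtain ⟨η, hη, hp⟩ := of_poly (lam := lam) (Ω := Ω) (sz := sz) hρ hρ1 hsz0 d
  have h1 := cnt_size (μ := μ) hP hM hUC hρ.le hnc hORB hsz hS hB hb hn hη
    (hp B (NA R T) C h) ζ
  have h4 : Tendsto (fun N : ℕ => c * ‖m (NA R T) (B (π (g * b ^ N * g⁻¹)⁻¹ ζ))‖ + ε) 𝒰
      (𝓝 ε) := by
    have h5 := ((h1.norm.const_mul c).add_const ε).mono_left h𝒰
    rwa [norm_zero, mul_zero, zero_add] at h5
  refine ge_of_tendsto h4 ((hR T hT).mono fun N hN => ?_)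
  have e1 : π (g * b ^ N * g⁻¹)⁻¹ (B ζ) = B (π (g * b ^ N * g⁻¹)⁻¹ ζ) := by
    have h6 : Commute B (π (g * b ^ N * g⁻¹)⁻¹) := by
      rw [conj_pow']
      exact H790.CTA.comm_inv (H790.CTA.comm_pow hb N)
    exact (congrArg (fun A : K →L[ℂ] K => A ζ) h6.eq).symm
  rw [← e1]
  exact hN

end count

section size

variable {k : Type} [NontriviallyNormedField k]

theorem nm_scalar {g h : S4 k} {c : k} (e : g.1.1 = c • h.1.1) : nm g = nm h := by
  have hc := H124.KL.norm_scalar (g := g.1) (h := h.1) e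
  have e2 : ∀ i j, ‖g.1.1 i j‖ = ‖h.1.1 i j‖ := by
    intro i j
    rw [e, Matrix.smul_apply, smul_eq_mul, norm_mul, hc, one_mul]
  refine le_antisymm (H124.KL.nm_le (H124.KL.nm_nonneg _) fun i j => ?_)
    (H124.KL.nm_le (H124.KL.nm_nonneg _) fun i j => ?_)
  · rw [e2]; exact H124.KL.le_nm _ i j
  · rw [← e2]; exact H124.KL.le_nm _ i j

theorem nm_pos (h : S4 k) : 0 < nm h := H124.KL.nm_pos _

theorem size_trans {Γ : Type} [Group Γ] {q : Γ → S4 k} (hq : PH q) (γ : Γ) :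
    ∃ d : ℝ, 1 ≤ d ∧ ∀ y, nm (q (γ * y)) ≤ d * nm (q y) := by
  refine ⟨max 1 ((((3 : ℕ) : ℝ) + 1) * nm (q γ)), le_max_left _ _, fun y => ?_⟩
  obtain ⟨c, hc⟩ := hq γ y
  have h1 : nm (q (γ * y)) = nm (q γ * q y) := nm_scalar (c := c) hc
  rw [h1]
  have h2 : nm (q γ * q y) ≤ (((3 : ℕ) : ℝ) + 1) * nm (q γ) * nm (q y) :=
    H124.KL.nm_mul_le (q γ).1 (q y).1
  exact h2.trans (mul_le_mul_of_nonneg_right (le_max_right _ _) (nm_pos _).le)

end size

section defs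

variable {k : Type} [NontriviallyNormedField k] {Γ K : Type} [NormedAddCommGroup K]
  [InnerProductSpace ℂ K] [CompleteSpace K] {Y Y' : Type} [TopologicalSpace Y] [CompactSpace Y]
  [MulAction (S4 k) Y] [ContinuousConstSMul (S4 k) Y] [TopologicalSpace Y'] [CompactSpace Y']
  [MulAction (S4 k) Y'] [ContinuousConstSMul (S4 k) Y']

/-- The polynomial count: `U` is the calculus near the wall, `P` the other one. -/
def Cnt (q : Γ → S4 k) (NA : ℝ → ℝ → Set Y → Set Γ) (In : Y → Y' → Prop) (D : Set C(Y', ℂ))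
    (U : C(Y, ℂ) →⋆ₐ[ℂ] (K →L[ℂ] K)) (P : C(Y', ℂ) →⋆ₐ[ℂ] (K →L[ℂ] K)) : Prop :=
  ∀ (R : ℝ) (A : Set Y) (h : C(Y, ℂ)) (f : C(Y', ℂ)), f ∈ D →
    (∀ X ∈ closure A, ∀ X' ∈ tsupport h, ∀ z, In X z → ¬ In X' z) →
    ∃ T > 0, ∃ (C : ℝ) (d : ℕ), ∀ J : ℝ, 0 ≤ J → ∀ S : Finset Γ,
      (∀ γ ∈ S, γ ∈ NA R T A ∧ Real.log (nm (q γ)) ≤ J) → ∀ ξ : K,
      ∑ γ ∈ S, ‖U (act (q γ)⁻¹ h) (P (act (q γ)⁻¹ f) ξ)‖ ^ 2 ≤ C * (1 + J) ^ d * ‖ξ‖ ^ 2

omit [MulAction (S4 k) Y] [ContinuousConstSMul (S4 k) Y] [MulAction (S4 k) Y']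
  [ContinuousConstSMul (S4 k) Y'] in
/-- room around the support of `u` -/
theorem exists_room [T2Space Y] [T2Space Y'] {In : Y → Y' → Prop} (hIn : IsClosed {p : Y × Y' | In p.1 p.2})
    {u h : C(Y, ℂ)} (ho : H796.Opp In u h) :
    ∃ A : Set Y, IsOpen A ∧ tsupport u ⊆ A ∧
      ∀ X ∈ closure A, ∀ X' ∈ tsupport h, ∀ z, In X z → ¬ In X' z := by
  have hcol := H796.isClosed_col hIn
  have hcl : IsClosed {X : Y | ∃ X' ∈ tsupport h, ∃ z, In X z ∧ In X' z} := by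
    have h1 : {X : Y | ∃ X' ∈ tsupport h, ∃ z, In X z ∧ In X' z} =
        Prod.fst '' ({q : Y × Y | ∃ z, In q.1 z ∧ In q.2 z} ∩ (Set.univ ×ˢ tsupport h)) := by
      ext X
      constructor
      · rintro ⟨X', hX', z, h1, h2⟩
        exact ⟨(X, X'), ⟨⟨z, h1, h2⟩, trivial, hX'⟩, rfl⟩
      · rintro ⟨⟨X, X'⟩, ⟨⟨z, h1, h2⟩, -, hX'⟩, rfl⟩
        exact ⟨X', hX', z, h1, h2⟩
    rw [h1]
    have h2 := hcol.inter (isClosed_univ.prod (isClosed_tsupport h))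
    exact (h2.isCompact.image continuous_fst).isClosed
  obtain ⟨A, hA, huA, hAc⟩ := normal_exists_closure_subset (isClosed_tsupport u)
    hcl.isOpen_compl (by
      rintro X hX ⟨X', hX', z, h1, h2⟩
      exact ho X hX X' hX' z h1 h2)
  exact ⟨A, hA, huA, fun X hX X' hX' z h1 h2 => hAc hX ⟨X', hX', z, h1, h2⟩⟩

end defs

section key

variable {k : Type} [NontriviallyNormedField k] [ProperSpace k] [MeasurableSpace k] [BorelSpace k]
  {μ : Measure k} [IsFiniteMeasureOnCompacts μ] [μ.IsOpenPosMeasure]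
  {E Γ K : Type} [Group E] [TopologicalSpace E] [Group Γ] [NormedAddCommGroup K]
  [InnerProductSpace ℂ K] [CompleteSpace K] {w : kˣ} {𝒰 : Ultrafilter ℕ} {ι : S4 k →* E}
  {a : E →* PG k 4} {π : E →* (K →L[ℂ] K)} {lam : Γ →* (K →L[ℂ] K)}
  {W : Set (K →L[ℂ] K)} {Ω : K} {m : Set Γ → (K →L[ℂ] K)} {q : Γ → S4 k}
  {Y Y' X X' : Type} [TopologicalSpace Y] [CompactSpace Y] [T2Space Y]
  [MulAction (S4 k) Y] [ContinuousConstSMul (S4 k) Y] [TopologicalSpace Y'] [CompactSpace Y']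
  [T2Space Y'] [MulAction (S4 k) Y'] [ContinuousConstSMul (S4 k) Y'] [MulAction (S4 k) X]
  [MulAction (S4 k) X']

omit [ProperSpace k] [MeasurableSpace k] [BorelSpace k] [T2Space Y] in
/-- covariance, inverse form -/
theorem cov_inv' {V : C(Y, ℂ) →⋆ₐ[ℂ] (K →L[ℂ] K)}
    (cov : ∀ γ f, lam γ * V f * lam γ⁻¹ = V (act (q γ) f)) (γ : Γ) (f : C(Y, ℂ)) :
    lam γ * V (act (q γ)⁻¹ f) * lam γ⁻¹ = V f := by
  rw [cov]
  congr 1
  ext x
  change f (((q γ)⁻¹)⁻¹ • ((q γ)⁻¹ • x)) = f x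
  rw [inv_inv, smul_inv_smul]

omit [NontriviallyNormedField k] [ProperSpace k] [MeasurableSpace k] [BorelSpace k] in
theorem commute_fix' {G : Type} [Group G] {ι : G →* E} {Z : Type} [MulAction G Z]
    {V : Z → (C(Y, ℂ) →⋆ₐ[ℂ] (K →L[ℂ] K))}
    (pcov : ∀ g v f, π (ι g) * V v f * π (ι g)⁻¹ = V (g • v) f) {g : G} {v : Z} (hg : g • v = v)
    (f : C(Y, ℂ)) : Commute (V v f) (π (ι g)) := by
  have h := pcov g v f
  rw [hg] at h
  have h3 : π (ι g)⁻¹ * π (ι g) = 1 := by rw [← map_mul, inv_mul_cancel, map_one]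
  change V v f * π (ι g) = π (ι g) * V v f
  calc V v f * π (ι g) = (π (ι g) * V v f * π (ι g)⁻¹) * π (ι g) := by rw [h]
    _ = π (ι g) * V v f * (π (ι g)⁻¹ * π (ι g)) := by simp only [mul_assoc]
    _ = π (ι g) * V v f := by rw [h3, mul_one]

/-- **From the count to the key**, any wall. -/
theorem key_of_cnt (hPB : PB μ w 𝒰 ι a π lam W Ω m q) {b : S4 k} {n : k → S4 k} (hn0 : n 0 = 1)
    (hnc : Continuous n) (horb : ORB μ ι π lam W Ω b n)
    (hsz : SIZEG (ι b) π Ω m fun γ => nm (q γ)) {v0 : X} {v0' : X'}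
    {NA : ℝ → ℝ → Set Y → Set Γ} {U : X → (C(Y, ℂ) →⋆ₐ[ℂ] (K →L[ℂ] K))}
    (hU : HFam 𝒰 b v0 ι π lam W m q NA U)
    {V : X' → (C(Y', ℂ) →⋆ₐ[ℂ] (K →L[ℂ] K))} (cmV : ∀ v f, Cm W (V v f))
    (covV : ∀ γ v f, lam γ * V v f * lam γ⁻¹ = V v (act (q γ) f))
    (pcovV : ∀ g v f, π (ι g) * V v f * π (ι g)⁻¹ = V (g • v) f)
    (g : S4 k) (hb : b • v0 = v0) (hb' : b • v0' = v0') (hn : ∀ s, n s • v0 = v0)
    (hn' : ∀ s, n s • v0' = v0') {In : Y → Y' → Prop} (hIn : IsClosed {p : Y × Y' | In p.1 p.2})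
    {D : Set C(Y', ℂ)} (hD : closure (Submodule.span ℂ D : Set C(Y', ℂ)) = Set.univ)
    (hc : Cnt q NA In D (U (g • v0)) (V (g • v0'))) {u h : C(Y, ℂ)} (ho : H796.Opp In u h)
    (f : C(Y', ℂ)) : U (g • v0) u * V (g • v0') f * U (g • v0) h = 0 := by
  haveI : IsTopologicalGroup E := hPB.adm.tg
  have hP := H790.CT.PicL.of_pic hPB.pic
  have hts : ∀ v : C(Y, ℂ), tsupport ⇑(star v) = tsupport ⇑v := fun v =>
    H124.KL.tsupport_star v
  -- one function of `star D`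
  have main : ∀ f ∈ D, U (g • v0) u * V (g • v0') (star f) * U (g • v0) h = 0 := by
    intro f hf
    have ho' : H796.Opp In u (star h) := by
      intro x hx x' hx'
      rw [hts] at hx'
      exact ho x hx x' hx'
    obtain ⟨A, hA, huA, hAf⟩ := exists_room hIn ho'
    obtain ⟨ρ, hρ, hρ1, horb⟩ := horb
    have hconj : ∀ β : S4 k, ι g * ι β * (ι g)⁻¹ = ι (g * β * g⁻¹) := by
      intro β
      rw [map_mul, map_mul, map_inv]
    have hfix : ∀ {Z : Type} [MulAction (S4 k) Z] {β : S4 k} {z : Z}, β • z = z →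
        (g * β * g⁻¹) • (g • z) = g • z := by
      intro Z _ β z hz
      rw [mul_smul, mul_smul, inv_smul_smul, hz]
    have hcomm : ∀ β : S4 k, β • v0 = v0 → β • v0' = v0' →
        Commute (V (g • v0') (star f) * U (g • v0) h) (π (ι g * ι β * (ι g)⁻¹)) := by
      intro β h1 h2
      rw [hconj]
      exact Commute.mul_left (commute_fix' pcovV (hfix h2) _)
        (commute_fix' hU.pcov (hfix h1) _)
    have hCm : Cm W (V (g • v0') (star f) * U (g • v0) h) := fun w' hw' => by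
      rw [mul_assoc, hU.cm (g • v0) h w' hw', ← mul_assoc, cmV (g • v0') (star f) w' hw',
        mul_assoc]
    rw [mul_assoc]
    refine zero_of_count' (μ := μ) (𝒰 : Filter ℕ) hPB.h𝒰 (b := ι b) (n := fun s : k => ι (n s))
      (ρ := ρ) (sz := fun γ => nm (q γ)) (g := ι g) (c := ‖u‖)
      (NA := fun R T => NA R T A) hP hPB.ms hPB.uc hρ hρ1 ?_ horb
      (size_trans hPB.ph) (fun γ => nm_pos _) hsz hCm (hcomm _ hb hb')
      (fun s => hcomm _ (hn s) (hn' s)) ?_ ?_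
    · have h1 : Continuous fun s : k => ι (n s) := hPB.adm.cι.comp hnc
      have h2 := h1.tendsto 0
      rw [hn0, map_one] at h2
      exact h2
    · intro ζ ε hε
      obtain ⟨R, hR⟩ := hU.dom g u A hA huA ζ ε hε
      refine ⟨R, fun T hT => (hR T hT).mono fun t ht => ?_⟩
      have e1 : ι (g * b ^ t * g⁻¹) = ι g * ι b ^ t * (ι g)⁻¹ := by
        rw [map_mul, map_mul, map_pow, map_inv]
      rw [e1] at ht
      exact ht
    · intro R
      obtain ⟨T, hT, c, d, hc'⟩ := hc R A (star h) f hf hAf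
      refine ⟨T, hT, c, d, fun J hJ S hS => ?_⟩
      have h2 := hc' J hJ S hS Ω
      rw [hPB.pic.nΩ, one_pow, mul_one] at h2
      refine le_trans (le_of_eq ?_) h2
      refine Finset.sum_congr rfl fun γ _ => ?_
      congr 1
      have e := norm_adj' (Ω := Ω) (H790.CT.lam_norm hP)
        (fun γ f => cov_inv' (q := q) (fun γ f => hU.cov γ (g • v0) f) γ f)
        (fun γ f => cov_inv' (q := q) (fun γ f => covV γ (g • v0') f) γ f) (star h) f γ
      rw [star_star] at e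
      exact e
  have hD' : Dense (Submodule.span ℂ ((fun g => star g) '' D) : Set C(Y', ℂ)) := by
    have hsp : (Submodule.span ℂ ((fun g => star g) '' D) : Set C(Y', ℂ)) =
        (fun g => star g) '' (Submodule.span ℂ D : Set C(Y', ℂ)) := by
      apply Set.Subset.antisymm
      · intro x hx
        refine Submodule.span_induction (p := fun x _ => x ∈ (fun g => star g) ''
          (Submodule.span ℂ D : Set C(Y', ℂ))) ?_ ?_ ?_ ?_ hx
        · rintro _ ⟨y, hy, rfl⟩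
          exact ⟨y, Submodule.subset_span hy, rfl⟩
        · exact ⟨0, Submodule.zero_mem _, star_zero _⟩
        · rintro _ _ _ _ ⟨y, hy, rfl⟩ ⟨y', hy', rfl⟩
          exact ⟨y + y', Submodule.add_mem _ hy hy', star_add _ _⟩
        · rintro c _ _ ⟨y, hy, rfl⟩
          refine ⟨star c • y, Submodule.smul_mem _ _ hy, ?_⟩
          change star (star c • y) = c • star y
          rw [star_smul, star_star]
      · rintro _ ⟨y, hy, rfl⟩
        refine Submodule.span_induction (p := fun y _ => star y ∈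
          (Submodule.span ℂ ((fun g => star g) '' D) : Set C(Y', ℂ))) ?_ ?_ ?_ ?_ hy
        · intro y hy
          exact Submodule.subset_span ⟨y, hy, rfl⟩
        · rw [star_zero]; exact Submodule.zero_mem _
        · intro y y' _ _ h1 h2
          rw [star_add]; exact Submodule.add_mem _ h1 h2
        · intro c y _ h1
          rw [star_smul]; exact Submodule.smul_mem _ _ h1
    rw [hsp]
    have hsurj : Function.Surjective fun g : C(Y', ℂ) => star g := fun g => ⟨star g, star_star g⟩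
    exact hsurj.denseRange.dense_image continuous_star (dense_iff_closure_eq.2 hD)
  refine H218.NC.mid_dense (V (g • v0')) (U (g • v0) u) (U (g • v0) h) hD' ?_ f
  rintro _ ⟨g', hg', rfl⟩
  exact main g' hg'

end key

section stmts

variable (k : Type) [NontriviallyNormedField k] [ProperSpace k]

/-- COUNT_1: near the wall of points. `E`, `B` calculi of points, `L`, `L'` calculi of lines,
incidences `E L`, `B L`, `B L'`. -/
def Count1Stmt : Prop :=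
  ∃ D : Set C(LL k, ℂ), closure (Submodule.span ℂ D : Set C(LL k, ℂ)) = Set.univ ∧
    ∀ {Γ K : Type} [NormedAddCommGroup K] [InnerProductSpace ℂ K] [CompleteSpace K]
      (q : Γ → S4 k), UD q → ∀ (E B : C(YY k 3, ℂ) →⋆ₐ[ℂ] (K →L[ℂ] K))
      (L L' : C(LL k, ℂ) →⋆ₐ[ℂ] (K →L[ℂ] K)), H796.PL on E L → H796.PL on B L →
      H796.PL on B L' → Cnt q (NA1 q) on D E L'

/-- COUNT_2: near the wall of lines. `E`, `P` calculi of points, `L`, `M` calculi of lines,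
incidences `E L`, `E M`, `P M`. -/
def Count2Stmt : Prop :=
  ∃ D : Set C(YY k 3, ℂ), closure (Submodule.span ℂ D : Set C(YY k 3, ℂ)) = Set.univ ∧
    ∀ {Γ K : Type} [NormedAddCommGroup K] [InnerProductSpace ℂ K] [CompleteSpace K]
      (q : Γ → S4 k), UD q → ∀ (E P : C(YY k 3, ℂ) →⋆ₐ[ℂ] (K →L[ℂ] K))
      (L M : C(LL k, ℂ) →⋆ₐ[ℂ] (K →L[ℂ] K)), H796.PL on E L → H796.PL on E M →
      H796.PL on P M → Cnt q (NA2 q) (flip on) D L P

end stmts

section legs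

variable {k : Type} [NontriviallyNormedField k] [ProperSpace k] [MeasurableSpace k] [BorelSpace k]
  {μ : Measure k} [IsFiniteMeasureOnCompacts μ] [μ.IsOpenPosMeasure]
  {E Γ K : Type} [Group E] [TopologicalSpace E] [Group Γ] [NormedAddCommGroup K]
  [InnerProductSpace ℂ K] [CompleteSpace K] {w : kˣ} {𝒰 : Ultrafilter ℕ} {ι : S4 k →* E}
  {a : E →* PG k 4} {π : E →* (K →L[ℂ] K)} {lam : Γ →* (K →L[ℂ] K)}
  {W : Set (K →L[ℂ] K)} {Ω : K} {m : Set Γ → (K →L[ℂ] K)} {q : Γ → S4 k}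

omit [ProperSpace k] [MeasurableSpace k] [BorelSpace k] in
theorem cont_of {f : k → Matrix.SpecialLinearGroup (Fin 4) k} (hf : ∀ s, f s ∈ S4 k)
    (h : ∀ i j, Continuous fun s => (f s).1 i j) : Continuous fun s : k => (⟨f s, hf s⟩ : S4 k) :=
  Continuous.subtype_mk (Continuous.subtype_mk (continuous_matrix h) _) _

omit [ProperSpace k] [MeasurableSpace k] [BorelSpace k] in
theorem Sh'_cont : Continuous (Sh' : k → S4 k) := by
  refine cont_of sh'_mem fun i j => ?_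
  fin_cases i <;> fin_cases j <;> simp [sh'] <;> fun_prop

omit [ProperSpace k] [MeasurableSpace k] [BorelSpace k] in
theorem Lg_cont : Continuous (Lg : k → S4 k) := by
  refine cont_of lg_mem fun i j => ?_
  fin_cases i <;> fin_cases j <;> simp [lg] <;> fun_prop

omit [ProperSpace k] [MeasurableSpace k] [BorelSpace k] in
theorem Sh'_zero : (Sh' 0 : S4 k) = 1 := by
  refine Subtype.ext (Subtype.ext ?_)
  ext i j
  fin_cases i <;> fin_cases j <;> simp [Sh', sh']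

omit [ProperSpace k] [MeasurableSpace k] [BorelSpace k] in
theorem Lg_zero : (Lg 0 : S4 k) = 1 := by
  refine Subtype.ext (Subtype.ext ?_)
  ext i j
  fin_cases i <;> fin_cases j <;> simp [Lg, lg]

omit [NontriviallyNormedField k] [ProperSpace k] [MeasurableSpace k] [BorelSpace k] in
theorem PL.swap {X Z : Type} [TopologicalSpace X] [CompactSpace X] [TopologicalSpace Z]
    [CompactSpace Z] {In : X → Z → Prop} {b : C(X, ℂ) →⋆ₐ[ℂ] (K →L[ℂ] K)}
    {l : C(Z, ℂ) →⋆ₐ[ℂ] (K →L[ℂ] K)} (h : H796.PL (flip In) l b) : H796.PL In b l where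
  com f g := (h.com g f).symm
  inc f g hfg := by
    have h1 := h.com g f
    change b f * l g = 0
    rw [← h1.eq]
    exact h.inc g f fun z hz x hx hxz => hfg x hx z hz hxz

/-- straight leg, first key -/
theorem key1_straight (hc : Count1Stmt k)
    {Ec : YY k 3 → (C(YY k 3, ℂ) →⋆ₐ[ℂ] (K →L[ℂ] K))}
    {F : LL k → (C(LL k, ℂ) →⋆ₐ[ℂ] (K →L[ℂ] K))}
    (h : LegC on μ w 𝒰 ι a π lam W Ω m q (NA1 q) (NA2 q) Ec F) : Key1 on Ec F := by
  obtain ⟨D, hD, hc⟩ := hc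
  intro c l hcl u g f ho
  obtain ⟨b, ν, h1, h2, h3⟩ := exists_proj hcl
  obtain ⟨γ, rfl, rfl⟩ := witt0 hcl
  exact key_of_cnt (μ := μ) h.base (n := Sh') Sh'_zero Sh'_cont h.base.orb1 h.base.size1
    (v0' := lE) h.e h.f.cm h.f.cov h.f.pcov γ (B1_pt0 w) (B1_lE w) Sh'_pt0 Sh'_lE on_closed hD
    (hc q h.base.ud _ (Ec b) (F ν) _ (h.pl _ _ h3) (h.pl _ _ h2) (h.pl _ _ h1)) ho g

/-- straight leg, second key -/
theorem key2_straight (hc : Count2Stmt k)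
    {Ec : YY k 3 → (C(YY k 3, ℂ) →⋆ₐ[ℂ] (K →L[ℂ] K))}
    {F : LL k → (C(LL k, ℂ) →⋆ₐ[ℂ] (K →L[ℂ] K))}
    (h : LegC on μ w 𝒰 ι a π lam W Ω m q (NA1 q) (NA2 q) Ec F) : Key2 on Ec F := by
  obtain ⟨D, hD, hc⟩ := hc
  intro c l hcl u g f ho
  obtain ⟨b, ν, h1, h2, h3⟩ := exists_proj hcl
  obtain ⟨γ, rfl, rfl⟩ := witt2 hcl
  exact key_of_cnt (μ := μ) h.base (n := Lg) Lg_zero Lg_cont h.base.orb2 h.base.size2
    (v0' := pt 2) h.f h.e.cm h.e.cov h.e.pcov γ (B2_l0 w) (B2_pt2 w) Lg_l0 Lg_pt2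
    (In := flip on) (on_closed.preimage continuous_swap) hD
    (hc q h.base.ud (Ec b) _ _ (F ν) (h.pl _ _ h1) (h.pl _ _ h2) (h.pl _ _ h3)) ho g

/-- flipped leg, first key -/
theorem key1_flipped (hc : Count2Stmt k)
    {Ec : YY k 3 → (C(LL k, ℂ) →⋆ₐ[ℂ] (K →L[ℂ] K))}
    {F : LL k → (C(YY k 3, ℂ) →⋆ₐ[ℂ] (K →L[ℂ] K))}
    (h : LegC (flip on) μ w 𝒰 ι a π lam W Ω m q (NA2 q) (NA1 q) Ec F) :
    Key1 (flip on) Ec F := by
  obtain ⟨D, hD, hc⟩ := hc
  intro c l hcl u g f ho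
  obtain ⟨b, ν, h1, h2, h3⟩ := exists_proj hcl
  obtain ⟨γ, rfl, rfl⟩ := witt0 hcl
  exact key_of_cnt (μ := μ) h.base (n := Sh') Sh'_zero Sh'_cont h.base.orb1 h.base.size1
    (v0' := lE) h.e h.f.cm h.f.cov h.f.pcov γ (B1_pt0 w) (B1_lE w) Sh'_pt0 Sh'_lE
    (In := flip on) (on_closed.preimage continuous_swap) hD
    (hc q h.base.ud (F ν) _ _ (Ec b) (PL.swap (h.pl _ _ h3)) (PL.swap (h.pl _ _ h2))
      (PL.swap (h.pl _ _ h1))) ho g

/-- flipped leg, second key -/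
theorem key2_flipped (hc : Count1Stmt k)
    {Ec : YY k 3 → (C(LL k, ℂ) →⋆ₐ[ℂ] (K →L[ℂ] K))}
    {F : LL k → (C(YY k 3, ℂ) →⋆ₐ[ℂ] (K →L[ℂ] K))}
    (h : LegC (flip on) μ w 𝒰 ι a π lam W Ω m q (NA2 q) (NA1 q) Ec F) :
    Key2 (flip on) Ec F := by
  obtain ⟨D, hD, hc⟩ := hc
  intro c l hcl u g f ho
  obtain ⟨b, ν, h1, h2, h3⟩ := exists_proj hcl
  obtain ⟨γ, rfl, rfl⟩ := witt2 hcl
  exact key_of_cnt (μ := μ) h.base (n := Lg) Lg_zero Lg_cont h.base.orb2 h.base.size2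
    (v0' := pt 2) h.f h.e.cm h.e.cov h.e.pcov γ (B2_l0 w) (B2_pt2 w) Lg_l0 Lg_pt2
    (In := on) on_closed hD
    (hc q h.base.ud _ (F ν) (Ec b) _ (PL.swap (h.pl _ _ h1)) (PL.swap (h.pl _ _ h2))
      (PL.swap (h.pl _ _ h3))) ho g

end legs

end Vale.Agent.P092.H99.P
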