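import Vale.Agent.P092.H99.P.Sh
import Vale.Agent.P092.H315P.OppE
import Vale.Agent.P092.H914.Fin0
import Vale.Agent.P092.H218.Loc

/-!
P092, TEAM P (helper99): COUNT_2 (near the wall of lines) from the estimate of one shell.
-/

set_option linter.all false

open scoped InnerProductSpace ENNReal LinearAlgebra.Projectivization Matrix
open Filter Topology ContinuousLinearMap MeasureTheory TopologicalSpace

namespace Vale.Agent.P092.H99.P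

open Vale.Agent.P092.SP
open Vale.Agent.P092.SP4
open Vale.Agent.P092.RC (YY)
open Vale.Agent.P092.H589.Mu (Cap)

section cap

variable {k : Type} [NontriviallyNormedField k] {Γ K : Type} [NormedAddCommGroup K]
  [InnerProductSpace ℂ K] [CompleteSpace K] {Y : Type} [TopologicalSpace Y] [CompactSpace Y]
  [MulAction (S4 k) Y] [ContinuousConstSMul (S4 k) Y]

/-- multiplicity of supports gives the capacity -/
theorem cap_of_mult (q : Γ → S4 k) (L : C(Y, ℂ) →⋆ₐ[ℂ] (K →L[ℂ] K)) (h : C(Y, ℂ)) (N : ℕ)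
    (S : Finset Γ)
    (hN : ∀ (y : Y) (S' : Finset Γ), S' ⊆ S → (∀ γ ∈ S', q γ • y ∈ tsupport h) → S'.card ≤ N) :
    Cap S (fun γ => L (act (q γ)⁻¹ h)) (Real.sqrt N * ‖h‖) := by
  classical
  intro v
  rw [mul_pow, Real.sq_sqrt (Nat.cast_nonneg _)]
  refine H218.sum_sq_le L S (fun γ => act (q γ)⁻¹ h) (by positivity) (fun y => ?_) v
  have hcard := hN y (S.filter fun γ => q γ • y ∈ tsupport h) (Finset.filter_subset _ _)
    fun γ hγ => (Finset.mem_filter.1 hγ).2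
  have hsum : ∑ γ ∈ S, ‖act (q γ)⁻¹ h y‖ ^ 2 ≤
      ∑ γ ∈ S.filter (fun γ => q γ • y ∈ tsupport h), ‖h‖ ^ 2 := by
    rw [Finset.sum_filter]
    refine Finset.sum_le_sum fun γ hγ => ?_
    have e : act (q γ)⁻¹ h y = h (q γ • y) := by
      change h ((q γ)⁻¹⁻¹ • y) = _
      rw [inv_inv]
    rw [e]
    split_ifs with hc
    · exact pow_le_pow_left₀ (norm_nonneg _) (h.norm_coe_le_norm _) 2
    · rw [image_eq_zero_of_notMem_tsupport hc, norm_zero, zero_pow two_ne_zero]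
  refine hsum.trans ?_
  rw [Finset.sum_const, nsmul_eq_mul]
  have h5 : ((S.filter fun γ => q γ • y ∈ tsupport h).card : ℝ) ≤ N := by
    exact_mod_cast hcard
  gcongr

end cap

section count

variable (k : Type) [NontriviallyNormedField k] [ProperSpace k]

/-- the estimate of one shell (helper464, H464/P/C2a.lean) -/
def Shell2Stmt : Prop :=
  ∀ {Γ K : Type} [NormedAddCommGroup K] [InnerProductSpace ℂ K] [CompleteSpace K]
    (q : Γ → S4 k) (E P : C(YY k 3, ℂ) →⋆ₐ[ℂ] (K →L[ℂ] K))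
    (L M : C(LL k, ℂ) →⋆ₐ[ℂ] (K →L[ℂ] K)), H796.PL on E L → H796.PL on E M → H796.PL on P M →
    ∀ (R : ℝ) (h : C(LL k, ℂ)) (f : C(YY k 3, ℂ)), f ∈ H914.TD k (Fin 4) →
    ∀ (Q : Γ → Prop) (D : ℝ), (∀ γ, Q γ → ∀ ν : LL k, q γ • ν ∈ tsupport h → ∀ z ∈ ν.1.1,
      nm (q γ) * ‖(q γ).1.1 *ᵥ z‖ ≤ D * ‖z‖) → (∀ γ, Q γ → NW2 R (q γ)) → ∀ Nc : ℝ, 0 ≤ Nc →
    (∀ s : ℕ, ∀ S : Finset Γ, (∀ γ ∈ S, Q γ ∧ Real.exp s ≤ nm (q γ) ∧
      nm (q γ) ≤ Real.exp (s + 1)) → Cap S (fun γ => L (act (q γ)⁻¹ h)) Nc) →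
    ∃ (C : ℝ) (d : ℕ), 0 ≤ C ∧ ∀ (s : ℕ) (S : Finset Γ), (∀ γ ∈ S, Q γ ∧
      Real.exp s ≤ nm (q γ) ∧ nm (q γ) ≤ Real.exp (s + 1)) → ∀ ξ : K,
      ∑ γ ∈ S, ‖L (act (q γ)⁻¹ h) (P (act (q γ)⁻¹ f) ξ)‖ ^ 2 ≤ C * (1 + s) ^ d * ‖ξ‖ ^ 2

variable {k}

/-- **COUNT_2** from the estimate of one shell -/
theorem count2_of (hk : (∃ τ : k →+* ℂ, ∀ x, ‖τ x‖ = ‖x‖) ∨ IsUltrametricDist k)
    (hs : Shell2Stmt k) : Count2Stmt k := by
  refine ⟨H914.TD k (Fin 4), H914.td_dense hk (Fin 4), ?_⟩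
  intro Γ K _ _ _ q hud E P L M h1 h2 h3 R A h f hf hAh
  obtain ⟨T, hT, D, hD, hloc⟩ := H315P.Opp.loc2 (A := A) (B := tsupport h)
    (isClosed_tsupport h) hAh R
  set Q : Γ → Prop := fun γ => γ ∈ NA2 q R T A with hQ
  have hl : ∀ γ, Q γ → ∀ ν : LL k, q γ • ν ∈ tsupport h → ∀ z ∈ ν.1.1,
      nm (q γ) * ‖(q γ).1.1 *ᵥ z‖ ≤ D * ‖z‖ := fun γ hγ => hloc (q γ) hγ.1 hγ.2
  set C₁ : ℝ := max (Real.exp 1) D with hC1
  obtain ⟨N, hN⟩ := H315P.Opp.shell2 hud C₁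
  obtain ⟨C, d, hC, hsh⟩ := hs q E P L M h1 h2 h3 R h f hf Q D hl (fun γ hγ => hγ.1)
    (Real.sqrt N * ‖h‖) (by positivity) (fun s S hS => by
      refine cap_of_mult q L h N S fun ν S' hS' hν => ?_
      refine hN S' (fun γ hγ γ' hγ' => ?_) ν fun γ hγ z hz => ?_
      · obtain ⟨_, _, a⟩ := hS γ (hS' hγ)
        obtain ⟨_, b, _⟩ := hS γ' (hS' hγ')
        calc nm (q γ) ≤ Real.exp (s + 1) := a
          _ = Real.exp 1 * Real.exp s := by rw [← Real.exp_add]; congr 1; ring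
          _ ≤ C₁ * nm (q γ') := mul_le_mul (le_max_left _ _) b (Real.exp_pos _).le
              ((Real.exp_pos _).le.trans (le_max_left _ _))
      · exact (hl γ (hS γ (hS' hγ)).1 ν (hν γ hγ) z hz).trans
          (mul_le_mul_of_nonneg_right (le_max_right _ _) (norm_nonneg _)))
  obtain ⟨C', hC', hfin⟩ := sum_shells (P := Unit) q hud
    (fun γ ξ => ‖L (act (q γ)⁻¹ h) (P (act (q γ)⁻¹ f) ξ)‖ ^ 2) (fun γ ξ => by positivity) Q
    (fun _ _ => True) 0 (fun _ _ _ => ⟨(), trivial⟩) (B := (‖h‖ * ‖f‖) ^ 2) (by positivity)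
    (fun γ _ ξ => triv_bound q L P h f γ ξ) hC d
    (fun s _ S _ hS ξ => hsh s S (fun γ hγ => ⟨(hS γ hγ).1, (hS γ hγ).2.1, (hS γ hγ).2.2.1⟩) ξ)
  exact ⟨T, hT, C', d + 1, fun J hJ S hS ξ => hfin J hJ S hS ξ⟩

end count

end Vale.Agent.P092.H99.P
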