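import Vale.Agent.P092.SP.Defs
import Vale.Agent.P092.H789.Sp.CapL

/-!
P092, TEAM P (helper99): Witt's theorem for a point and a line of `Sp_4(k)` which are not incident;
the projection; stabilisers of the standard pairs.
-/

set_option linter.all false

open scoped LinearAlgebra.Projectivization Matrix
open Matrix Module Set Topology TopologicalSpace

namespace Vale.Agent.P092.H99.P

open Vale.Agent.P092.SP
open Vale.Agent.P092.SP4
open Vale.Agent.P092.H100.Gr (Gr)
open Vale.Agent.P092.RC (GG YY y0)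
open Vale.Agent.P092.H644.Gr3 (p1)

section det

variable {k : Type} [Field k]

/-- the Pfaffian identity -/
theorem det_om (g : Matrix (Fin 4) (Fin 4) k) : g.det =
    om (fun i => g i 0) (fun i => g i 1) * om (fun i => g i 2) (fun i => g i 3) -
    om (fun i => g i 0) (fun i => g i 2) * om (fun i => g i 1) (fun i => g i 3) +
    om (fun i => g i 0) (fun i => g i 3) * om (fun i => g i 1) (fun i => g i 2) := by
  simp only [om_eq]
  rw [Matrix.det_succ_row_zero]
  simp only [Fin.sum_univ_four, Matrix.det_fin_three, Matrix.submatrix_apply, Fin.succAbove]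
  simp [Fin.lt_def]
  ring

theorem gram_apply (c : Fin 4 → Fin 4 → k) (i j : Fin 4) :
    ((Matrix.of fun a b => c b a)ᵀ * J4 k * (Matrix.of fun a b => c b a)) i j =
      om (c i) (c j) := by
  rw [om_eq]
  simp [J4, Matrix.mul_apply, Fin.sum_univ_four]
  ring

/-- the symplectic matrix with given columns -/
theorem exists_S4 (c : Fin 4 → Fin 4 → k) (h01 : om (c 0) (c 1) = 0) (h02 : om (c 0) (c 2) = 0)
    (h03 : om (c 0) (c 3) = 1) (h12 : om (c 1) (c 2) = 1) (h13 : om (c 1) (c 3) = 0)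
    (h23 : om (c 2) (c 3) = 0) : ∃ g : S4 k, ∀ j, g.1.1 *ᵥ Pi.single j 1 = c j := by
  have hd : (Matrix.of fun a b => c b a : Matrix (Fin 4) (Fin 4) k).det = 1 := by
    rw [det_om]
    change om (c 0) (c 1) * om (c 2) (c 3) - om (c 0) (c 2) * om (c 1) (c 3) +
      om (c 0) (c 3) * om (c 1) (c 2) = 1
    rw [h01, h02, h03, h12]
    ring
  refine ⟨⟨⟨Matrix.of fun a b => c b a, hd⟩, mem_S4'.2 ?_⟩, fun j => ?_⟩
  · ext i j
    change ((Matrix.of fun a b => c b a)ᵀ * J4 k * (Matrix.of fun a b => c b a)) i j = _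
    rw [gram_apply]
    fin_cases i <;> fin_cases j <;>
      simp [J4, om_self, h01, h02, h03, h12, h13, h23, om_swap (c 0) (c 1), om_swap (c 0) (c 2),
        om_swap (c 0) (c 3), om_swap (c 1) (c 2), om_swap (c 1) (c 3), om_swap (c 2) (c 3)]
  · funext i
    rw [Matrix.mulVec_single_one]
    rfl

end det

section geo

variable {k : Type} [NontriviallyNormedField k]

/-- the point `[e_j]` -/
noncomputable def pt (j : Fin 4) : YY k 3 :=
  Projectivization.mk k (Pi.single j 1) (by simp)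

theorem y0_eq : (y0 : YY k 3) = pt 0 := rfl

theorem mem_sp13 {x : Fin 4 → k} :
    x ∈ Submodule.span k (Set.range ![(Pi.single 1 1 : Fin 4 → k), Pi.single 3 1]) ↔
      x 0 = 0 ∧ x 2 = 0 := by
  constructor
  · intro h
    rw [Submodule.mem_span_range_iff_exists_fun] at h
    obtain ⟨c, rfl⟩ := h
    simp [Fin.sum_univ_two]
  · rintro ⟨h2, h3⟩
    rw [Submodule.mem_span_range_iff_exists_fun]
    refine ⟨![x 1, x 3], ?_⟩
    ext i
    fin_cases i <;> simp [Fin.sum_univ_two, h2, h3]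

/-- the line `⟨e_1, e_3⟩` -/
noncomputable def lE : LL k :=
  ⟨⟨Submodule.span k (Set.range ![(Pi.single 1 1 : Fin 4 → k), Pi.single 3 1]), by
    rw [finrank_span_eq_card, Fintype.card_fin]
    rw [LinearIndependent.pair_iff]
    intro s t h
    have h0 := congrFun h 1
    have h1 := congrFun h 3
    simp at h0 h1
    exact ⟨h0, h1⟩⟩, by
    intro x hx y hy
    obtain ⟨hx2, hx3⟩ := mem_sp13.1 hx
    obtain ⟨hy2, hy3⟩ := mem_sp13.1 hy
    rw [om_eq, hx2, hx3, hy2, hy3]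
    ring⟩

theorem mem_lE {x : Fin 4 → k} : x ∈ (lE : LL k).1.1 ↔ x 0 = 0 ∧ x 2 = 0 := mem_sp13

theorem LL_eq_of_le {l l' : LL k} (h : l.1.1 ≤ l'.1.1) : l = l' :=
  Subtype.ext (H100.Gr.eq_of_le h)

theorem smul_le_of {g : S4 k} {l l' : LL k} (h : ∀ x ∈ l.1.1, g.1.1 *ᵥ x ∈ l'.1.1) :
    g • l = l' := by
  refine LL_eq_of_le ?_
  rintro _ ⟨x, hx, rfl⟩
  exact h x hx

theorem smul_pt (g : S4 k) (v : Fin 4 → k) (hv : v ≠ 0) (hv' : g.1.1 *ᵥ v ≠ 0) :
    g • (Projectivization.mk k v hv : YY k 3) = Projectivization.mk k (g.1.1 *ᵥ v) hv' := rfl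

theorem mk_eq_of {v w : Fin 4 → k} (hv : v ≠ 0) (hw : w ≠ 0) (c : k) (h : w = c • v) :
    (Projectivization.mk k v hv : YY k 3) = Projectivization.mk k w hw := by
  have hc : c ≠ 0 := by
    rintro rfl
    rw [zero_smul] at h
    exact hw h
  symm
  rw [Projectivization.mk_eq_mk_iff]
  exact ⟨Units.mk0 c hc, h.symm⟩

theorem mulVec_ne (g : S4 k) {v : Fin 4 → k} (hv : v ≠ 0) : g.1.1 *ᵥ v ≠ 0 :=
  (smul_ne_zero_iff_ne g.1).2 hv

theorem fix_pt {g : S4 k} {j : Fin 4} (c : k)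
    (h : g.1.1 *ᵥ (Pi.single j 1 : Fin 4 → k) = c • Pi.single j 1) : g • (pt j : YY k 3) = pt j := by
  have hv : (Pi.single j 1 : Fin 4 → k) ≠ 0 := by simp
  exact (mk_eq_of hv (mulVec_ne g hv) c h).symm

/-- a vector orthogonal to a line lies on it -/
theorem mem_of_om {x : Fin 4 → k} {l : LL k} (h : ∀ z ∈ l.1.1, om x z = 0) : x ∈ l.1.1 := by
  have hf : Module.finrank k l.1.1 = 2 := l.1.2
  let B := Module.finBasisOfFinrankEq k l.1.1 hf
  set v : Fin 4 → k := (B 0 : Fin 4 → k) with hv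
  set w : Fin 4 → k := (B 1 : Fin 4 → k) with hw
  have mv : v ∈ l.1.1 := (B 0).2
  have mw : w ∈ l.1.1 := (B 1).2
  have mem : ∀ a b : k, a • v + b • w ∈ l.1.1 := fun a b =>
    l.1.1.add_mem (l.1.1.smul_mem _ mv) (l.1.1.smul_mem _ mw)
  have li : LinearIndependent k ![v, w] := by
    have h1 := B.linearIndependent.map' l.1.1.subtype l.1.1.ker_subtype
    have h2 : (l.1.1.subtype ∘ B : Fin 2 → Fin 4 → k) = ![v, w] := by
      ext i; fin_cases i <;> rfl
    rwa [h2] at h1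
  have hne : ∃ p q, v p * w q - v q * w p ≠ 0 := by
    by_contra hcon
    push Not at hcon
    rw [LinearIndependent.pair_iff] at li
    by_cases hv0 : v = 0
    · have := li 1 0 (by rw [hv0]; simp)
      exact one_ne_zero this.1
    · obtain ⟨p, hp⟩ := Function.ne_iff.1 hv0
      have h3 := li (- w p) (v p) (by
        ext q
        have := hcon p q
        simp only [Pi.add_apply, Pi.smul_apply, smul_eq_mul, Pi.zero_apply]
        linear_combination this)
      exact hp h3.2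
  obtain ⟨p, q, a, b, c, d, hpq, xp, xq, yp, yq, -, -, -⟩ := H789.Sp.CapL.exists_piv v w hne
  have hom : ∀ x y : Fin 4 → k, H789.Sp.CapP.om x y = om x y := fun x y => (om_eq x y).symm
  have e := H789.Sp.CapL.mem_of_perp (x := a • v + b • w) (y := c • v + d • w) (z := x) hpq xp xq
    yp yq (by rw [hom]; exact l.2 _ (mem a b) _ (mem c d))
    (by rw [hom, om_swap, h _ (mem a b), neg_zero]) (by rw [hom, om_swap, h _ (mem c d), neg_zero])
  rw [e]
  exact l.1.1.add_mem (l.1.1.smul_mem _ (mem a b)) (l.1.1.smul_mem _ (mem c d))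

/-- a Witt frame of a point and a line which are not incident -/
theorem exists_frame {x : Fin 4 → k} {l : LL k} (hx : x ∉ l.1.1) :
    ∃ y z w : Fin 4 → k, y ∈ l.1.1 ∧ z ∈ l.1.1 ∧ om x y = 0 ∧ om x z = 1 ∧ om y w = 1 ∧
      om x w = 0 ∧ om z w = 0 ∧ om y z = 0 := by
  obtain ⟨z₀, hz₀, hz₁⟩ : ∃ z ∈ l.1.1, om x z ≠ 0 := by
    by_contra hc
    push Not at hc
    exact hx (mem_of_om hc)
  set z : Fin 4 → k := (om x z₀)⁻¹ • z₀ with hz
  have hzl : z ∈ l.1.1 := l.1.1.smul_mem _ hz₀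
  have hxz : om x z = 1 := by rw [hz, om_smul_right, inv_mul_cancel₀ hz₁]
  obtain ⟨t, ht, hts⟩ : ∃ t ∈ l.1.1, t ∉ Submodule.span k {z} := by
    by_contra hc
    push Not at hc
    have h1 : l.1.1 ≤ Submodule.span k {z} := hc
    have h2 := Submodule.finrank_mono h1
    have hf : Module.finrank k l.1.1 = 2 := l.1.2
    have h3 := finrank_span_le_card (R := k) ({z} : Set (Fin 4 → k))
    rw [hf] at h2
    simp at h3
    omega
  set y : Fin 4 → k := t - om x t • z with hy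
  have hyl : y ∈ l.1.1 := l.1.1.sub_mem ht (l.1.1.smul_mem _ hzl)
  have hy0 : y ≠ 0 := by
    intro h0
    apply hts
    rw [hy, sub_eq_zero] at h0
    rw [h0]
    exact Submodule.smul_mem _ _ (Submodule.mem_span_singleton_self z)
  have hxy : om x y = 0 := by
    have e : y = t + (-(om x t)) • z := by rw [hy, neg_smul, sub_eq_add_neg]
    rw [e, om_add_right, om_smul_right, hxz]; ring
  have hyz : om y z = 0 := l.2 _ hyl _ hzl
  obtain ⟨w₁, hw₁⟩ := om_nondeg hy0
  set w₀ : Fin 4 → k := (om y w₁)⁻¹ • w₁ with hw₀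
  have hyw : om y w₀ = 1 := by rw [hw₀, om_smul_right, inv_mul_cancel₀ hw₁]
  clear_value w₀ y z
  refine ⟨y, z, w₀ + (-(om x w₀)) • z + om z w₀ • x, hyl, hzl, hxy, hxz, ?_, ?_, ?_, hyz⟩
  · rw [om_add_right, om_add_right, om_smul_right, om_smul_right, hyw, hyz, om_swap x y, hxy]
    ring
  · rw [om_add_right, om_add_right, om_smul_right, om_smul_right, hxz, om_self]
    ring
  · rw [om_add_right, om_add_right, om_smul_right, om_smul_right, om_self, om_swap x z, hxz]
    ring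

theorem span_le_of {l l' : LL k} {u v : Fin 4 → k}
    (hl : ∀ x ∈ l.1.1, ∃ a b : k, x = a • u + b • v) (hu : u ∈ l'.1.1) (hv : v ∈ l'.1.1) :
    l = l' := by
  refine LL_eq_of_le fun x hx => ?_
  obtain ⟨a, b, rfl⟩ := hl x hx
  exact l'.1.1.add_mem (l'.1.1.smul_mem _ hu) (l'.1.1.smul_mem _ hv)

theorem decE {x : Fin 4 → k} (hx : x ∈ (lE : LL k).1.1) :
    x = x 1 • Pi.single 1 1 + x 3 • (Pi.single 3 1 : Fin 4 → k) := by
  obtain ⟨h0, h2⟩ := mem_lE.1 hx
  ext i
  fin_cases i <;> simp [h0, h2]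

theorem dec0 {x : Fin 4 → k} (hx : x ∈ (l0 : LL k).1.1) :
    x = x 0 • Pi.single 0 1 + x 1 • (Pi.single 1 1 : Fin 4 → k) := by
  obtain ⟨h2, h3⟩ := mem_l0.1 hx
  ext i
  fin_cases i <;> simp [h2, h3]

theorem smul_lE {g : S4 k} {l : LL k} (h1 : g.1.1 *ᵥ Pi.single 1 1 ∈ l.1.1)
    (h3 : g.1.1 *ᵥ Pi.single 3 1 ∈ l.1.1) : g • (lE : LL k) = l := by
  refine smul_le_of fun x hx => ?_
  rw [decE hx, Matrix.mulVec_add, Matrix.mulVec_smul, Matrix.mulVec_smul]
  exact l.1.1.add_mem (l.1.1.smul_mem _ h1) (l.1.1.smul_mem _ h3)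

theorem smul_l0 {g : S4 k} {l : LL k} (h1 : g.1.1 *ᵥ Pi.single 0 1 ∈ l.1.1)
    (h3 : g.1.1 *ᵥ Pi.single 1 1 ∈ l.1.1) : g • (l0 : LL k) = l := by
  refine smul_le_of fun x hx => ?_
  rw [dec0 hx, Matrix.mulVec_add, Matrix.mulVec_smul, Matrix.mulVec_smul]
  exact l.1.1.add_mem (l.1.1.smul_mem _ h1) (l.1.1.smul_mem _ h3)

/-- **Witt**: a point and a line, not incident; the point is `[e_0]` -/
theorem witt0 {c : YY k 3} {l : LL k} (h : ¬ on c l) : ∃ g : S4 k, g • pt 0 = c ∧ g • lE = l := by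
  induction c using Projectivization.ind with
  | h x hx =>
    rw [on_mk] at h
    obtain ⟨y, z, w, hy, hz, h1, h2, h3, h4, h5, h6⟩ := exists_frame h
    obtain ⟨g, hg⟩ := exists_S4 ![x, y, w, z] h1 h4 h2 h3 h6 (by
      change om w z = 0
      rw [om_swap, h5, neg_zero])
    refine ⟨g, ?_, smul_lE (by rw [hg]; exact hy) (by rw [hg]; exact hz)⟩
    exact (mk_eq_of hx (mulVec_ne g (by simp)) 1 (by rw [hg, one_smul]; rfl)).symm

/-- **Witt**: a point and a line, not incident; the line is `l0` -/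
theorem witt2 {c : YY k 3} {l : LL k} (h : ¬ on c l) : ∃ g : S4 k, g • pt 2 = c ∧ g • l0 = l := by
  induction c using Projectivization.ind with
  | h x hx =>
    rw [on_mk] at h
    obtain ⟨y, z, w, hy, hz, h1, h2, h3, h4, h5, h6⟩ := exists_frame h
    obtain ⟨g, hg⟩ := exists_S4 ![y, (-1 : k) • z, x, w]
      (by
        change om y ((-1 : k) • z) = 0
        rw [om_smul_right, h6, mul_zero])
      (by
        change om y x = 0
        rw [om_swap, h1, neg_zero]) h3
      (by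
        change om ((-1 : k) • z) x = 1
        rw [om_smul_left, om_swap x z, h2]; ring)
      (by
        change om ((-1 : k) • z) w = 0
        rw [om_smul_left, h5, mul_zero]) h4
    refine ⟨g, ?_, smul_l0 (by rw [hg]; exact hy)
      (by rw [hg]; exact l.1.1.smul_mem _ hz)⟩
    exact (mk_eq_of hx (mulVec_ne g (by simp)) 1 (by rw [hg, one_smul]; rfl)).symm

/-- the projection of a point to a line -/
theorem exists_proj {c : YY k 3} {l : LL k} (h : ¬ on c l) :
    ∃ (b : YY k 3) (m : LL k), on b l ∧ on b m ∧ on c m := by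
  obtain ⟨g, rfl, rfl⟩ := witt0 h
  refine ⟨g • pt 1, g • l0, (on_smul g).2 (on_mk _ |>.2 (mem_lE.2 (by simp))),
    (on_smul g).2 (on_mk _ |>.2 (mem_l0.2 (by simp))),
    (on_smul g).2 (on_mk _ |>.2 (mem_l0.2 (by simp)))⟩

/-! ### stabilisers -/

theorem B1_pt0 (w : kˣ) : B1 w • (pt 0 : YY k 3) = pt 0 :=
  fix_pt ((w⁻¹ : kˣ) : k) (by
    ext i
    simp [B1, b1, Matrix.mulVec_diagonal]
    fin_cases i <;> simp)

theorem Sh'_pt0 (s : k) : Sh' s • (pt 0 : YY k 3) = pt 0 :=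
  fix_pt 1 (by
    ext i
    rw [Matrix.mulVec_single_one]
    fin_cases i <;> simp [Sh', sh', Matrix.col])

theorem B1_lE (w : kˣ) : B1 w • (lE : LL k) = lE :=
  smul_lE (mem_lE.2 (by simp [B1, b1, Matrix.mulVec_diagonal]))
    (mem_lE.2 (by simp [B1, b1, Matrix.mulVec_diagonal]))

theorem Sh'_lE (s : k) : Sh' s • (lE : LL k) = lE :=
  smul_lE (mem_lE.2 (by
      rw [Matrix.mulVec_single_one]
      simp [Sh', sh', Matrix.col])) (mem_lE.2 (by
      rw [Matrix.mulVec_single_one]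
      simp [Sh', sh', Matrix.col]))

theorem B2_pt2 (w : kˣ) : B2 w • (pt 2 : YY k 3) = pt 2 :=
  fix_pt (w : k) (by
    ext i
    simp [B2, b2, Matrix.mulVec_diagonal]
    fin_cases i <;> simp)

theorem Lg_pt2 (s : k) : Lg s • (pt 2 : YY k 3) = pt 2 :=
  fix_pt 1 (by
    ext i
    rw [Matrix.mulVec_single_one]
    fin_cases i <;> simp [Lg, lg, Matrix.col])

theorem B2_l0 (w : kˣ) : B2 w • (l0 : LL k) = l0 :=
  smul_l0 (mem_l0.2 (by simp [B2, b2, Matrix.mulVec_diagonal]))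
    (mem_l0.2 (by simp [B2, b2, Matrix.mulVec_diagonal]))

theorem Lg_l0 (s : k) : Lg s • (l0 : LL k) = l0 :=
  smul_l0 (mem_l0.2 (by
      rw [Matrix.mulVec_single_one]
      simp [Lg, lg, Matrix.col])) (mem_l0.2 (by
      rw [Matrix.mulVec_single_one]
      simp [Lg, lg, Matrix.col]))

end geo

end Vale.Agent.P092.H99.P
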