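import Vale.Agent.P092.H99.P.Key
import Vale.Agent.P092.SP.Blocks
import Vale.Agent.P092.H914.Shell

/-!
P092, TEAM P (helper99): summation over shells and pivots for the size `nm` on `Sp_4(k)`; the four
key statements of SP/Blocks from the two counts.
-/

set_option linter.all false

open scoped InnerProductSpace ENNReal LinearAlgebra.Projectivization Matrix
open Filter Topology ContinuousLinearMap MeasureTheory TopologicalSpace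

namespace Vale.Agent.P092.H99.P

open Vale.Agent.P092.SP
open Vale.Agent.P092.SP4
open Vale.Agent.P092.RC (YY)

section size

variable {k : Type} [NontriviallyNormedField k]

theorem entry_le (g : S4 k) (i j : Fin 4) : ‖g.1.1 i j‖ ≤ nm g := H124.KL.le_nm g.1 i j

theorem nm_le {g : S4 k} {C : ℝ} (hC : 0 ≤ C) (h : ∀ i j, ‖g.1.1 i j‖ ≤ C) : nm g ≤ C :=
  H124.KL.nm_le hC h

theorem nm_mul_le (g h : S4 k) : nm (g * h) ≤ 4 * nm g * nm h := by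
  have h2 : nm (g * h) ≤ (((3 : ℕ) : ℝ) + 1) * nm g * nm h := H124.KL.nm_mul_le g.1 h.1
  refine h2.trans (le_of_eq ?_)
  norm_num

theorem norm_om_le (x y : Fin 4 → k) : ‖om x y‖ ≤ 4 * ‖x‖ * ‖y‖ := by
  rw [om_eq]
  have h : ∀ i j : Fin 4, ‖x i * y j‖ ≤ ‖x‖ * ‖y‖ := fun i j => by
    rw [norm_mul]
    exact mul_le_mul (norm_le_pi_norm x i) (norm_le_pi_norm y j) (norm_nonneg _) (norm_nonneg _)
  calc ‖x 0 * y 3 + x 1 * y 2 - x 2 * y 1 - x 3 * y 0‖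
      ≤ ‖x 0 * y 3 + x 1 * y 2 - x 2 * y 1‖ + ‖x 3 * y 0‖ := norm_sub_le _ _
    _ ≤ ‖x 0 * y 3 + x 1 * y 2‖ + ‖x 2 * y 1‖ + ‖x 3 * y 0‖ := by
        gcongr; exact norm_sub_le _ _
    _ ≤ ‖x 0 * y 3‖ + ‖x 1 * y 2‖ + ‖x 2 * y 1‖ + ‖x 3 * y 0‖ := by
        gcongr; exact norm_add_le _ _
    _ ≤ ‖x‖ * ‖y‖ + ‖x‖ * ‖y‖ + ‖x‖ * ‖y‖ + ‖x‖ * ‖y‖ := by
        gcongr <;> exact h _ _
    _ = 4 * ‖x‖ * ‖y‖ := by ring

theorem norm_JMJ (M : Matrix (Fin 4) (Fin 4) k) (i j : Fin 4) :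
    ‖(J4 k * Mᵀ * J4 k) i j‖ = ‖M j.rev i.rev‖ := by
  simp only [Matrix.mul_apply, Fin.sum_univ_four, Matrix.transpose_apply]
  fin_cases i <;> fin_cases j <;> simp [J4, Fin.rev] <;> rfl

theorem inv_entry_le (g : S4 k) (i j : Fin 4) : ‖(g⁻¹).1.1 i j‖ ≤ nm g := by
  have e : (g⁻¹).1.1 = -(J4 k * g.1.1ᵀ * J4 k) := inv_val g.2
  rw [e, Matrix.neg_apply, norm_neg, norm_JMJ]
  exact entry_le g _ _

theorem nm_inv (g : S4 k) : nm g⁻¹ = nm g := by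
  refine le_antisymm (nm_le (nm_pos g).le (inv_entry_le g)) ?_
  refine nm_le (nm_pos _).le fun i j => ?_
  have h := inv_entry_le g⁻¹ i j
  rwa [inv_inv] at h

theorem mulVec_le (g : S4 k) (x : Fin 4 → k) : ‖g.1.1 *ᵥ x‖ ≤ 4 * nm g * ‖x‖ := by
  have h0 := (nm_pos g).le
  refine (pi_norm_le_iff_of_nonneg (by positivity)).2 fun i => ?_
  have h : ∀ j : Fin 4, ‖g.1.1 i j * x j‖ ≤ nm g * ‖x‖ := fun j => by
    rw [norm_mul]
    exact mul_le_mul (entry_le g i j) (norm_le_pi_norm x j) (norm_nonneg _) h0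
  change ‖∑ j, g.1.1 i j * x j‖ ≤ _
  refine (norm_sum_le _ _).trans ((Finset.sum_le_sum fun j _ => h j).trans (le_of_eq ?_))
  rw [Finset.sum_const, Finset.card_univ, Fintype.card_fin, nsmul_eq_mul]
  norm_num
  ring

/-- elements of bounded size -/
theorem ball_card {Γ : Type} {q : Γ → S4 k} (hud : UD q) (R : ℝ) :
    ∃ N : ℕ, ∀ S : Finset Γ, (∀ γ ∈ S, nm (q γ) ≤ R) → S.card ≤ N := by
  obtain ⟨N, hN⟩ := hud (4 * |R| * |R|)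
  refine ⟨N, fun S hS => hN S (fun _ _ => trivial) fun γ hγ γ' hγ' => ?_⟩
  have h1 : SN.nm ((q γ').1 * ((q γ).1)⁻¹) = nm (q γ' * (q γ)⁻¹) := rfl
  rw [h1]
  refine (nm_mul_le _ _).trans ?_
  rw [nm_inv]
  have h2 := hS γ hγ
  have h3 := hS γ' hγ'
  have h4 := (nm_pos (q γ)).le
  have h5 := (nm_pos (q γ')).le
  have h6 := le_abs_self R
  have h7 := abs_nonneg R
  calc 4 * nm (q γ') * nm (q γ) ≤ 4 * |R| * |R| := by
        gcongr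
        · exact h3.trans h6
        · exact h2.trans h6
    _ = _ := rfl

end size

section shells

variable {k : Type} [NontriviallyNormedField k] {Γ K P : Type} [NormedAddCommGroup K] [Fintype P]

/-- **Summation over shells and pivots.** -/
theorem sum_shells (q : Γ → S4 k) (hud : UD q) (Φ : Γ → K → ℝ)
    (hΦ : ∀ γ ξ, 0 ≤ Φ γ ξ) (Q : Γ → Prop) (piv : Γ → P → Prop) (s₀ : ℕ)
    (hpiv : ∀ γ, Q γ → Real.exp s₀ ≤ nm (q γ) → ∃ p, piv γ p) {B : ℝ} (hB0 : 0 ≤ B)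
    (hB : ∀ γ, Q γ → ∀ ξ, Φ γ ξ ≤ B * ‖ξ‖ ^ 2)
    {C : ℝ} (hC : 0 ≤ C) (d : ℕ)
    (h1 : ∀ (s : ℕ) (p : P) (S : Finset Γ), s₀ ≤ s → (∀ γ ∈ S, Q γ ∧
      Real.exp s ≤ nm (q γ) ∧ nm (q γ) ≤ Real.exp (s + 1) ∧ piv γ p) →
      ∀ ξ, ∑ γ ∈ S, Φ γ ξ ≤ C * (1 + s) ^ d * ‖ξ‖ ^ 2) :
    ∃ C' : ℝ, 0 ≤ C' ∧ ∀ J : ℝ, 0 ≤ J → ∀ S : Finset Γ,
      (∀ γ ∈ S, Q γ ∧ Real.log (nm (q γ)) ≤ J) →
      ∀ ξ, ∑ γ ∈ S, Φ γ ξ ≤ C' * (1 + J) ^ (d + 1) * ‖ξ‖ ^ 2 := by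
  classical
  obtain ⟨M₀, h0⟩ := ball_card hud (Real.exp s₀)
  refine ⟨M₀ * B + Fintype.card P * C, by positivity, fun J hJ S hS ξ => ?_⟩
  set S₀ := S.filter fun γ => nm (q γ) ≤ Real.exp s₀ with hS0
  set cell : ℕ → P → Finset Γ := fun s p =>
    S.filter fun γ => Real.exp s ≤ nm (q γ) ∧ nm (q γ) ≤ Real.exp (s + 1) ∧ piv γ p with hcell
  set I := (Finset.range (⌊J⌋₊ + 1)).filter fun s => s₀ ≤ s with hI
  have hcov : S ⊆ S₀ ∪ I.biUnion fun s => Finset.univ.biUnion fun p => cell s p := by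
    intro γ hγ
    rw [Finset.mem_union]
    by_cases h2 : nm (q γ) ≤ Real.exp s₀
    · exact Or.inl (Finset.mem_filter.2 ⟨hγ, h2⟩)
    · right
      rw [not_le] at h2
      have h3 : 0 < nm (q γ) := (Real.exp_pos _).trans h2
      have h4 : (s₀ : ℝ) < Real.log (nm (q γ)) := (Real.lt_log_iff_exp_lt h3).2 h2
      have h5 : 0 ≤ Real.log (nm (q γ)) := (Nat.cast_nonneg _).trans h4.le
      obtain ⟨p, hp⟩ := hpiv γ (hS γ hγ).1 h2.le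
      refine Finset.mem_biUnion.2 ⟨⌊Real.log (nm (q γ))⌋₊, ?_, Finset.mem_biUnion.2 ⟨p,
        Finset.mem_univ _, Finset.mem_filter.2 ⟨hγ, ?_, ?_, hp⟩⟩⟩
      · rw [hI, Finset.mem_filter, Finset.mem_range, Nat.lt_succ_iff]
        exact ⟨Nat.floor_le_floor (hS γ hγ).2, Nat.le_floor h4.le⟩
      · rw [← Real.le_log_iff_exp_le h3]
        exact Nat.floor_le h5
      · rw [← Real.log_le_iff_le_exp h3]
        exact (Nat.lt_floor_add_one _).le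
  have hξ : 0 ≤ ‖ξ‖ ^ 2 := by positivity
  have e0 : ∑ γ ∈ S₀, Φ γ ξ ≤ M₀ * B * ‖ξ‖ ^ 2 := by
    have h2 : ∑ γ ∈ S₀, Φ γ ξ ≤ ∑ γ ∈ S₀, B * ‖ξ‖ ^ 2 :=
      Finset.sum_le_sum fun γ hγ => hB γ (hS γ (Finset.mem_filter.1 hγ).1).1 ξ
    refine h2.trans ?_
    rw [Finset.sum_const, nsmul_eq_mul]
    have h3 : (S₀.card : ℝ) ≤ M₀ := by
      exact_mod_cast h0 S₀ fun γ hγ => (Finset.mem_filter.1 hγ).2
    calc (S₀.card : ℝ) * (B * ‖ξ‖ ^ 2) ≤ M₀ * (B * ‖ξ‖ ^ 2) := by gcongr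
      _ = _ := by ring
  have e1 : ∀ s ∈ I, ∀ p : P, ∑ γ ∈ cell s p, Φ γ ξ ≤ C * (1 + J) ^ d * ‖ξ‖ ^ 2 := by
    intro s hs p
    rw [hI, Finset.mem_filter, Finset.mem_range, Nat.lt_succ_iff] at hs
    have h2 := h1 s p (cell s p) hs.2 (fun γ hγ => by
      obtain ⟨h2, h3⟩ := Finset.mem_filter.1 hγ
      exact ⟨(hS γ h2).1, h3⟩) ξ
    have h3 : (s : ℝ) ≤ J := (Nat.le_floor_iff hJ).1 hs.1
    refine h2.trans ?_
    gcongr
  have e2 : ∑ γ ∈ I.biUnion fun s => Finset.univ.biUnion fun p => cell s p, Φ γ ξ ≤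
      (1 + J) * (Fintype.card P * (C * (1 + J) ^ d * ‖ξ‖ ^ 2)) := by
    have h2 : ∑ γ ∈ I.biUnion fun s => Finset.univ.biUnion fun p => cell s p, Φ γ ξ ≤
        ∑ s ∈ I, ∑ p : P, ∑ γ ∈ cell s p, Φ γ ξ := by
      refine (H914.sum_biUnion_le' _ _ _ fun γ => hΦ γ ξ).trans ?_
      exact Finset.sum_le_sum fun s _ => H914.sum_biUnion_le' _ _ _ fun γ => hΦ γ ξ
    refine h2.trans ?_
    have h3 : ∀ s ∈ I, ∑ p : P, ∑ γ ∈ cell s p, Φ γ ξ ≤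
        Fintype.card P * (C * (1 + J) ^ d * ‖ξ‖ ^ 2) := fun s hs => by
      refine (Finset.sum_le_sum fun p _ => e1 s hs p).trans ?_
      rw [Finset.sum_const, nsmul_eq_mul, Finset.card_univ]
    refine (Finset.sum_le_sum h3).trans ?_
    rw [Finset.sum_const, nsmul_eq_mul]
    have h4 : (I.card : ℝ) ≤ 1 + J := by
      have h5 : I.card ≤ ⌊J⌋₊ + 1 := by
        rw [hI]
        exact (Finset.card_filter_le _ _).trans (by rw [Finset.card_range])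
      have h6 : (I.card : ℝ) ≤ ⌊J⌋₊ + 1 := by exact_mod_cast h5
      linarith [Nat.floor_le hJ]
    gcongr
  have e3 : ∑ γ ∈ S, Φ γ ξ ≤ ∑ γ ∈ S₀, Φ γ ξ +
      ∑ γ ∈ I.biUnion fun s => Finset.univ.biUnion fun p => cell s p, Φ γ ξ := by
    refine (Finset.sum_le_sum_of_subset_of_nonneg hcov fun γ _ _ => hΦ γ ξ).trans ?_
    have := Finset.sum_union_inter (s₁ := S₀)
      (s₂ := I.biUnion fun s => Finset.univ.biUnion fun p => cell s p) (f := fun γ => Φ γ ξ)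
    have h2 : 0 ≤ ∑ γ ∈ S₀ ∩ I.biUnion fun s => Finset.univ.biUnion fun p => cell s p, Φ γ ξ :=
      Finset.sum_nonneg fun γ _ => hΦ γ ξ
    linarith
  have e4 : (1 : ℝ) ≤ (1 + J) ^ (d + 1) := one_le_pow₀ (by linarith)
  have e5 : M₀ * B * ‖ξ‖ ^ 2 ≤ M₀ * B * ‖ξ‖ ^ 2 * (1 + J) ^ (d + 1) :=
    le_mul_of_one_le_right (by positivity) e4
  calc _ ≤ _ := e3
    _ ≤ M₀ * B * ‖ξ‖ ^ 2 + (1 + J) * (Fintype.card P * (C * (1 + J) ^ d * ‖ξ‖ ^ 2)) :=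
        add_le_add e0 e2
    _ ≤ M₀ * B * ‖ξ‖ ^ 2 * (1 + J) ^ (d + 1) +
        (1 + J) * (Fintype.card P * (C * (1 + J) ^ d * ‖ξ‖ ^ 2)) := by linarith
    _ = _ := by ring

end shells

section act

variable {k : Type} [NontriviallyNormedField k] {Γ K Y Y' : Type} [NormedAddCommGroup K]
  [InnerProductSpace ℂ K] [CompleteSpace K] [TopologicalSpace Y] [CompactSpace Y]
  [MulAction (S4 k) Y] [ContinuousConstSMul (S4 k) Y] [TopologicalSpace Y'] [CompactSpace Y']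
  [MulAction (S4 k) Y'] [ContinuousConstSMul (S4 k) Y']

theorem norm_act_le (g : S4 k) (f : C(Y, ℂ)) : ‖act g f‖ ≤ ‖f‖ :=
  (ContinuousMap.norm_le _ (norm_nonneg _)).2 fun _ => f.norm_coe_le_norm _

theorem tsupport_act' (g : S4 k) (f : C(Y, ℂ)) {x : Y} (hx : x ∈ tsupport (act g⁻¹ f)) :
    g • x ∈ tsupport f := by
  have h := tsupport_comp_subset_preimage (f : Y → ℂ)
    (continuous_const_smul (g⁻¹)⁻¹) (a := x) hx
  rw [Set.mem_preimage, inv_inv] at h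
  exact h

/-- the trivial bound -/
theorem triv_bound (q : Γ → S4 k) (U : C(Y, ℂ) →⋆ₐ[ℂ] (K →L[ℂ] K))
    (V : C(Y', ℂ) →⋆ₐ[ℂ] (K →L[ℂ] K)) (h : C(Y, ℂ)) (f : C(Y', ℂ)) (γ : Γ) (ξ : K) :
    ‖U (act (q γ)⁻¹ h) (V (act (q γ)⁻¹ f) ξ)‖ ^ 2 ≤ (‖h‖ * ‖f‖) ^ 2 * ‖ξ‖ ^ 2 := by
  rw [← mul_pow]
  refine pow_le_pow_left₀ (norm_nonneg _) ?_ 2
  have h1 : ‖U (act (q γ)⁻¹ h)‖ ≤ ‖h‖ :=
    (NonUnitalStarAlgHom.norm_apply_le U _).trans (norm_act_le _ _)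
  have h2 : ‖V (act (q γ)⁻¹ f)‖ ≤ ‖f‖ :=
    (NonUnitalStarAlgHom.norm_apply_le V _).trans (norm_act_le _ _)
  calc _ ≤ ‖U (act (q γ)⁻¹ h)‖ * ‖V (act (q γ)⁻¹ f) ξ‖ := ContinuousLinearMap.le_opNorm _ _
    _ ≤ ‖h‖ * (‖f‖ * ‖ξ‖) := by
        refine mul_le_mul h1 ?_ (norm_nonneg _) (norm_nonneg _)
        exact (ContinuousLinearMap.le_opNorm _ _).trans
          (mul_le_mul_of_nonneg_right h2 (norm_nonneg _))
    _ = _ := by ring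

end act

section blocks

variable {k : Type} [NontriviallyNormedField k] [ProperSpace k] [MeasurableSpace k] [BorelSpace k]
  {μ : Measure k} [IsFiniteMeasureOnCompacts μ] [μ.IsOpenPosMeasure]

theorem key1Stmt (hc : Count1Stmt k) : Key1Stmt k μ :=
  fun w 𝒰 ι a π lam W Ω m q Ec F h => key1_straight (μ := μ) hc h

theorem key2Stmt (hc : Count2Stmt k) : Key2Stmt k μ :=
  fun w 𝒰 ι a π lam W Ω m q Ec F h => key2_straight (μ := μ) hc h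

theorem key1Stmt' (hc : Count2Stmt k) : Key1Stmt' k μ :=
  fun w 𝒰 ι a π lam W Ω m q Ec F h => key1_flipped (μ := μ) hc h

theorem key2Stmt' (hc : Count1Stmt k) : Key2Stmt' k μ :=
  fun w 𝒰 ι a π lam W Ω m q Ec F h => key2_flipped (μ := μ) hc h

end blocks

end Vale.Agent.P092.H99.P
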